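import Vale.Agent.P251EJ.DefsS

/-!
# P251EJ: permuted summands and the rational five lemma
-/

open CategoryTheory Limits Pretriangulated Preadditive

universe v u

namespace Vale.Agent.P251EJ97

open Vale.Agent.P251EJ

variable {T : Type u} [Category.{v} T] [Preadditive T]

variable (T) in
theorem freeS : FreeS T := by
  intro G P P' E C C' j j' ρ q a π h h' e1 e2 hs ho
  refine ⟨fun V b k => ⟨1, one_ne_zero, ?_⟩, fun V b k => ?_⟩
  · rw [one_smul]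
    refine h'.ext V b fun y => ?_
    obtain ⟨x, rfl⟩ := hs y
    rw [← e2, Category.assoc, k, comp_zero]
  · choose s hs using hs
    obtain ⟨c, hc⟩ := h'.desc V fun y => j (s y) ≫ b
    refine ⟨1, c, one_ne_zero, ?_⟩
    rw [one_smul, ← sub_eq_zero]
    refine h.ext V _ fun x => ?_
    obtain ⟨g, hg⟩ := ho x (s (π x)) (hs _).symm
    rw [comp_sub, ← Category.assoc, e2, hc, hg, ← e1, Category.assoc, k, sub_self]

/-- averaging over a finite group -/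
theorem avg {G : Type} [Group G] [Fintype G] {C V : T} {ρ : G → (C ⟶ C)}
    (h : ∀ g h, ρ g ≫ ρ h = ρ (g * h)) (c : C ⟶ V) (g : G) :
    ρ g ≫ ∑ k, ρ k ≫ c = ∑ k, ρ k ≫ c := by
  rw [comp_sum]
  exact Fintype.sum_equiv (Equiv.mulLeft g) _ _ fun k => by
    rw [← Category.assoc, h, Equiv.coe_mulLeft]

/-- the surjectivity clause passes through a left adjoint -/
theorem surj_adj {L R : T ⥤ T} [L.Additive] (ad : L ⊣ R) {G : Type} {Y Z : T}
    {ρ : G → (Y ⟶ Y)} {q : Y ⟶ Z} (h : Cov ρ q) (V : T) (a : L.obj Y ⟶ V)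
    (k : ∀ g, L.map (ρ g) ≫ a = a) : ∃ (m : ℤ) (b : L.obj Z ⟶ V), m ≠ 0 ∧ L.map q ≫ b = m • a := by
  obtain ⟨m, b, m0, e⟩ := h.surj _ (ad.homEquiv _ _ a) fun g => by
    rw [← ad.homEquiv_naturality_left, k]
  refine ⟨m, (ad.homEquiv _ _).symm b, m0, ?_⟩
  rw [← ad.homEquiv_naturality_left_symm, e, ad.homEquiv_counit, L.map_zsmul, zsmul_comp,
    ← ad.homEquiv_counit, Equiv.symm_apply_apply]

variable (T) [HasZeroObject T] [HasShift T ℤ] [∀ n : ℤ, (shiftFunctor T n).Additive]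
  [Pretriangulated T]

theorem fiveS : FiveS T := by
  intro G _ _ A B C A' B' C' i j δ i' j' δ' ρA ρB ρC qA qB qC t t' mA mC ei ej eδ qi qj qδ iB iC
    hA hC
  have N0 : (Fintype.card G : ℤ) ≠ 0 := Nat.cast_ne_zero.2 Fintype.card_ne_zero
  refine ⟨fun V b k => ?_, fun V a k => ?_⟩
  · obtain ⟨m1, n1, e1⟩ := hA.inj V (i' ≫ b) (by rw [reassoc_of% qi, k, comp_zero])
    obtain ⟨c, e2⟩ : ∃ c : C' ⟶ V, m1 • b = j' ≫ c :=
      Triangle.yoneda_exact₂ _ t' (m1 • b) ((comp_zsmul ..).trans e1)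
    obtain ⟨a, e3⟩ : ∃ a : A⟦(1 : ℤ)⟧ ⟶ V, qC ≫ c = δ ≫ a :=
      Triangle.yoneda_exact₃ _ t (qC ≫ c) (by
        show j ≫ qC ≫ c = 0
        rw [← reassoc_of% qj, ← e2, comp_zsmul, k, smul_zero])
    obtain ⟨m2, a', n2, e4⟩ := surj_adj (L := shiftFunctor T (1 : ℤ))
      (shiftEquiv T (1 : ℤ)).toAdjunction hA V
      (∑ g, (ρA g)⟦(1 : ℤ)⟧' ≫ a) (avg (ρ := fun g => (ρA g)⟦(1 : ℤ)⟧')
        (fun g h => by rw [← Functor.map_comp, mA]) a)
    replace e4 : qA⟦(1 : ℤ)⟧' ≫ a' = m2 • ∑ g, (ρA g)⟦(1 : ℤ)⟧' ≫ a := e4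
    have e5 : δ ≫ ∑ g, (ρA g)⟦(1 : ℤ)⟧' ≫ a = (Fintype.card G : ℤ) • qC ≫ c := by
      rw [comp_sum, Finset.sum_congr rfl fun g _ => show _ = qC ≫ c by
        rw [← reassoc_of% eδ g, ← e3, reassoc_of% iC g]]
      simp
    obtain ⟨m3, n3, e6⟩ := hC.inj V (δ' ≫ a' - (m2 * Fintype.card G) • c) (by
      rw [comp_sub, reassoc_of% qδ, e4, comp_zsmul, e5, comp_zsmul, mul_smul, sub_self])
    refine ⟨m3 * (m2 * Fintype.card G) * m1, by positivity, ?_⟩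
    have z : j' ≫ δ' = 0 := comp_distTriang_mor_zero₂₃ _ t'
    have := congrArg (j' ≫ ·) e6
    simp only [comp_zsmul, comp_sub, reassoc_of% z, zero_comp, zero_sub, comp_zero, ← e2,
      smul_neg, neg_eq_zero] at this
    rwa [mul_smul, mul_smul]
  · obtain ⟨m1, a1, n1, e1⟩ := hA.surj V (i ≫ a) fun g => by rw [reassoc_of% ei g, k]
    have z : δ ≫ i⟦(1 : ℤ)⟧' = 0 := comp_distTriang_mor_zero₃₁ _ t
    obtain ⟨m2, n2, e2⟩ := hC.inj _ (δ' ≫ a1⟦(1 : ℤ)⟧') (by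
      rw [reassoc_of% qδ, ← Functor.map_comp, e1, Functor.map_zsmul, Functor.map_comp,
        comp_zsmul, reassoc_of% z, zero_comp, smul_zero])
    obtain ⟨b1, e3⟩ : ∃ b1 : B'⟦(1 : ℤ)⟧ ⟶ V⟦(1 : ℤ)⟧,
        m2 • a1⟦(1 : ℤ)⟧' = (-i'⟦(1 : ℤ)⟧') ≫ b1 :=
      Triangle.yoneda_exact₃ _ (rot_of_distTriang _ t') _ ((comp_zsmul ..).trans e2)
    obtain ⟨b2, rfl⟩ := (shiftFunctor T (1 : ℤ)).map_surjective b1
    have e4 : i' ≫ (-b2) = m2 • a1 := (shiftFunctor T (1 : ℤ)).map_injective (by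
      rw [Functor.map_zsmul, e3, Functor.map_comp, Functor.map_neg, comp_neg, neg_comp])
    obtain ⟨c, e5⟩ : ∃ c : C ⟶ V, qB ≫ (-b2) - (m2 * m1) • a = j ≫ c :=
      Triangle.yoneda_exact₂ _ t _ (by
        show i ≫ (qB ≫ (-b2) - (m2 * m1) • a) = 0
        rw [comp_sub, ← reassoc_of% qi, e4, comp_zsmul, e1, comp_zsmul, mul_smul, sub_self])
    obtain ⟨m3, c', n3, e6⟩ := hC.surj V _ (avg mC c)
    have e7 : j ≫ ∑ g, ρC g ≫ c = (Fintype.card G : ℤ) • (qB ≫ (-b2) - (m2 * m1) • a) := by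
      rw [comp_sum, Finset.sum_congr rfl fun g _ => show _ = qB ≫ (-b2) - (m2 * m1) • a by
        rw [← reassoc_of% ej g, ← e5, comp_sub, reassoc_of% iB g, comp_zsmul, k]]
      simp only [Finset.sum_const, Finset.card_univ, natCast_zsmul]
    refine ⟨m3 * Fintype.card G * (m2 * m1), (m3 * Fintype.card G) • (-b2) - j' ≫ c',
      by positivity, ?_⟩
    rw [comp_sub, reassoc_of% qj, e6, comp_zsmul, comp_zsmul, e7, ← mul_smul, smul_sub,
      sub_sub_cancel, ← mul_smul]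

end Vale.Agent.P251EJ97
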